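import Mathlib

/-!
Definitions used in the statement of P359 (spherical Laughlin Hamiltonian).
`U_Q` is `ℂ^(Q+1)` in the orthonormal basis `e_j = √(C(Q,j)) u^(Q-j) v^j`.
-/

namespace Vale.Agent.P359

open scoped Kronecker Matrix

noncomputable section

/-- Orthogonal projection of `v` onto the subspace `K`. -/
def proj {ι : Type} [Fintype ι] (K : Submodule ℂ (EuclideanSpace ℂ ι)) (v : EuclideanSpace ℂ ι) :
    EuclideanSpace ℂ ι := K.starProjection v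

/-- Orthogonal projection of `v` onto the span of `u`. -/
def lineProj {ι : Type} [Fintype ι] (u v : EuclideanSpace ℂ ι) : EuclideanSpace ℂ ι :=
  proj (Submodule.span ℂ {u}) v

/-- Real part of the inner product. -/
def reInner {ι : Type} [Fintype ι] (u v : EuclideanSpace ℂ ι) : ℝ := (inner ℂ u v).re

/-- Eigenspace of the matrix `A` for the eigenvalue `μ`. -/
def eigSp {ι : Type} [Fintype ι] (A : Matrix ι ι ℂ) (μ : ℂ) : Submodule ℂ (EuclideanSpace ℂ ι) :=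
  Submodule.span ℂ {v | A *ᵥ v.ofLp = μ • v.ofLp}

/-- `S² = S_z² + (S_+ S_- + S_- S_+)/2`. -/
def spinSq {ι : Type} [Fintype ι] (Z P M : Matrix ι ι ℂ) : Matrix ι ι ℂ :=
  Z * Z + (1 / 2 : ℂ) • (P * M + M * P)

/-- `S_z = (u∂_u - v∂_v)/2` in the orthonormal basis. -/
def spinZ (Q : ℕ) : Matrix (Fin (Q + 1)) (Fin (Q + 1)) ℂ :=
  Matrix.diagonal fun j => (Q : ℂ) / 2 - (j : ℕ)

/-- `S_+ = u∂_v` in the orthonormal basis. -/
def spinUp (Q : ℕ) : Matrix (Fin (Q + 1)) (Fin (Q + 1)) ℂ :=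
  fun i j => if (i : ℕ) + 1 = j then (Real.sqrt ((((i : ℕ) + 1) * (Q - (i : ℕ)) : ℕ) : ℝ) : ℂ) else 0

/-- `S_- = v∂_u`, the adjoint of `S_+`. -/
def spinDown (Q : ℕ) : Matrix (Fin (Q + 1)) (Fin (Q + 1)) ℂ := (spinUp Q)ᴴ

/-- The total of a one-particle operator on `U_Q ⊗ U_Q`. -/
def pairOp {Q : ℕ} (A : Matrix (Fin (Q + 1)) (Fin (Q + 1)) ℂ) :
    Matrix (Fin (Q + 1) × Fin (Q + 1)) (Fin (Q + 1) × Fin (Q + 1)) ℂ :=
  A ⊗ₖ (1 : Matrix (Fin (Q + 1)) (Fin (Q + 1)) ℂ) + (1 : Matrix (Fin (Q + 1)) (Fin (Q + 1)) ℂ) ⊗ₖ A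

/-- The total spin squared (Casimir) on `U_Q ⊗ U_Q`. -/
def casimir (Q : ℕ) : Matrix (Fin (Q + 1) × Fin (Q + 1)) (Fin (Q + 1) × Fin (Q + 1)) ℂ :=
  spinSq (pairOp (spinZ Q)) (pairOp (spinUp Q)) (pairOp (spinDown Q))

/-- Two-particle space `U_Q ⊗ U_Q`. -/
abbrev Pair (Q : ℕ) := EuclideanSpace ℂ (Fin (Q + 1) × Fin (Q + 1))

/-- `N`-particle space `U_Q^{⊗ N}`. -/
abbrev Tens (N Q : ℕ) := EuclideanSpace ℂ (Fin N → Fin (Q + 1))

/-- The component of total spin `Q - 1` in `U_Q ⊗ U_Q`: Casimir eigenvalue `(Q-1) Q`. -/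
def spinComp (Q : ℕ) : Submodule ℂ (Pair Q) :=
  eigSp (casimir Q) (((Q : ℂ) - 1) * Q)

/-- `P^{(1)}_{ij}`: the orthogonal projection onto `spinComp Q` acting on tensor factors `i, j`. -/
def pairProj {N Q : ℕ} (i j : Fin N) (ψ : Tens N Q) : Tens N Q :=
  WithLp.toLp 2 fun x => proj (spinComp Q)
    (WithLp.toLp 2 fun y => ψ (Function.update (Function.update x i y.1) j y.2)) (x i, x j)

/-- `H_{N,Q} ψ = ∑_{i<j} P^{(1)}_{ij} ψ`. -/
def ham {N Q : ℕ} (ψ : Tens N Q) : Tens N Q :=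
  ∑ i : Fin N, ∑ j : Fin N, if i < j then pairProj i j ψ else 0

/-- Fermionic (antisymmetric) tensors. -/
def IsFermionic {N Q : ℕ} (ψ : Tens N Q) : Prop :=
  ∀ (σ : Equiv.Perm (Fin N)) (x : Fin N → Fin (Q + 1)),
    ψ (fun k => x (σ k)) = ((Equiv.Perm.sign σ : ℤ) : ℂ) * ψ x

/-- `∏_{i<j} (u_i v_j - u_j v_i)^3`, with `u_i = X (i,0)`, `v_i = X (i,1)`. -/
def laughlinPoly (N : ℕ) : MvPolynomial (Fin N × Fin 2) ℂ :=
  ∏ i : Fin N, ∏ j : Fin N, if i < j then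
    (MvPolynomial.X (i, 0) * MvPolynomial.X (j, 1) - MvPolynomial.X (j, 0) * MvPolynomial.X (i, 1)) ^ 3
    else 1

/-- Exponent of the monomial `∏_i u_i^(Q - x_i) v_i^(x_i)`. -/
def monoExp {N Q : ℕ} (x : Fin N → Fin (Q + 1)) : Fin N × Fin 2 →₀ ℕ :=
  Finsupp.equivFunOnFinite.symm fun k => if k.2 = 0 then Q - (x k.1 : ℕ) else (x k.1 : ℕ)

/-- Coordinates, in the orthonormal basis `⊗_i e_{x_i}`, of a polynomial in the `u_i, v_i`. -/
def coords (N Q : ℕ) (f : MvPolynomial (Fin N × Fin 2) ℂ) : Tens N Q :=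
  WithLp.toLp 2 fun x => MvPolynomial.coeff (monoExp x) f /
    ∏ i : Fin N, (Real.sqrt (Nat.choose Q (x i)) : ℂ)

/-- The Laughlin vector in `U_{3(N-1)}^{⊗ N}`. -/
def laughlin (N : ℕ) : Tens N (3 * (N - 1)) := coords N (3 * (N - 1)) (laughlinPoly N)

end

end Vale.Agent.P359
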